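import Vale.Agent.P017.H443.Tup

/-!
# L3: the main terms of the moments
-/

namespace Vale.Agent.P017.H443

open Finset Vale.Agent.P014.FM Vale.Agent.P017.H506

/-- the sign -/
noncomputable def sg (a : ZMod 2) : ℝ := if a = 0 then 1 else -1

theorem sg_zero : sg 0 = 1 := if_pos rfl

theorem sg_one : sg 1 = -1 := if_neg (by decide)

theorem z2_cases (a : ZMod 2) : a = 0 ∨ a = 1 := by
  revert a; decide

theorem sg_add (a b : ZMod 2) : sg (a + b) = sg a * sg b := by
  rcases z2_cases a with rfl | rfl <;> rcases z2_cases b with rfl | rfl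
  · rw [add_zero, sg_zero, one_mul]
  · rw [zero_add, sg_zero, one_mul]
  · rw [add_zero, sg_zero, mul_one]
  · rw [show (1 : ZMod 2) + 1 = 0 from by decide, sg_zero, sg_one]; norm_num

theorem sg_sum {ι : Type*} (s : Finset ι) (f : ι → ZMod 2) :
    sg (∑ i ∈ s, f i) = ∏ i ∈ s, sg (f i) := by
  classical
  induction s using Finset.induction_on with
  | empty => simp [sg_zero]
  | insert i s hi ih => rw [Finset.sum_insert hi, Finset.prod_insert hi, sg_add, ih]

theorem sg_inj {a b : ZMod 2} (h : sg a = sg b) : a = b := by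
  rcases z2_cases a with rfl | rfl <;> rcases z2_cases b with rfl | rfl
  · rfl
  · rw [sg_zero, sg_one] at h; norm_num at h
  · rw [sg_zero, sg_one] at h; norm_num at h
  · rfl

theorem sg_nonneg_add (a : ZMod 2) : 0 ≤ 1 + sg a := by
  rcases z2_cases a with rfl | rfl
  · rw [sg_zero]; norm_num
  · rw [sg_one]; norm_num

section base

/-- residue modulo 4 -/
def em (p : ℕ) : ZMod 2 := if p % 4 = 3 then 1 else 0

open Classical in
/-- exponent of the symbol -/
noncomputable def wm (p q : ℕ) : ZMod 2 := if J p q = -1 then 1 else 0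

theorem J_pm {p q : ℕ} (h : Nat.Coprime p q) : J p q = 1 ∨ J p q = -1 := by
  unfold Vale.Agent.P014.H580.J
  have h1 : Int.gcd (p : ℤ) (q : ℤ) = 1 := by rw [Int.gcd_natCast_natCast]; exact h
  rcases jacobiSym.eq_one_or_neg_one h1 with h2 | h2
  · left; rw [h2]; norm_num
  · right; rw [h2]; norm_num

theorem sg_wm {p q : ℕ} (h : Nat.Coprime p q) : sg (wm p q) = J p q := by
  unfold wm
  rcases J_pm h with h1 | h1
  · rw [h1, if_neg (by norm_num), sg_zero]
  · rw [h1, if_pos rfl, sg_one]

theorem J_mul_J {p q : ℕ} (hp : p % 2 = 1) (hq : q % 2 = 1) (h : Nat.Coprime p q) :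
    J p q * J q p = sg (em p * em q) := by
  have h1 : J p q * J p q = 1 := by
    rcases J_pm h with h1 | h1 <;> rw [h1] <;> norm_num
  have hpo := Nat.odd_iff.mpr hp
  have hqo := Nat.odd_iff.mpr hq
  have hp4 : p % 4 = 1 ∨ p % 4 = 3 := by omega
  have hq4 : q % 4 = 1 ∨ q % 4 = 3 := by omega
  unfold em
  rcases hp4 with hp4 | hp4
  · have h2 : J q p = J p q := by
      unfold Vale.Agent.P014.H580.J
      rw [jacobiSym.quadratic_reciprocity_one_mod_four hp4 hqo]
    rw [h2, h1, if_neg (by omega), zero_mul, sg_zero]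
  · rcases hq4 with hq4 | hq4
    · have h2 : J p q = J q p := by
        unfold Vale.Agent.P014.H580.J
        rw [jacobiSym.quadratic_reciprocity_one_mod_four hq4 hpo]
      rw [← h2, h1, if_pos hp4, if_neg (by omega), mul_zero, sg_zero]
    · have h2 : J q p = - J p q := by
        unfold Vale.Agent.P014.H580.J
        rw [jacobiSym.quadratic_reciprocity_three_mod_four hq4 hp4]
        push_cast; ring
      rw [h2, mul_neg, h1, if_pos hp4, if_pos hq4, mul_one, sg_one]

theorem wm_add {p q : ℕ} (hp : p % 2 = 1) (hq : q % 2 = 1) (h : Nat.Coprime p q) :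
    wm p q + wm q p = em p * em q := by
  apply sg_inj
  rw [sg_add, sg_wm h, sg_wm h.symm, J_mul_J hp hq h]

theorem prod_mod (s : Finset ℕ) (hs : ∀ p ∈ s, p % 2 = 1) :
    ((∏ p ∈ s, p) % 4 = 1 ∧ ∑ p ∈ s, em p = 0) ∨ ((∏ p ∈ s, p) % 4 = 3 ∧ ∑ p ∈ s, em p = 1) := by
  classical
  induction s using Finset.induction_on with
  | empty => left; simp
  | insert a s ha ih =>
    have h1 := ih fun p hp => hs p (Finset.mem_insert_of_mem hp)
    have h2 := hs a (Finset.mem_insert_self _ _)
    rw [Finset.prod_insert ha, Finset.sum_insert ha, Nat.mul_mod]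
    have h4 : a % 4 = 1 ∨ a % 4 = 3 := by omega
    rcases h4 with h4 | h4 <;> rcases h1 with ⟨h5, h6⟩ | ⟨h5, h6⟩ <;> rw [h4, h5, h6] <;>
      unfold em <;> rw [h4] <;> decide

theorem sum_em {n : ℕ} (hn : Squarefree n) (h4 : n % 4 = 3) :
    ∑ p : n.primeFactors, em p = 1 := by
  have hodd : ∀ p ∈ n.primeFactors, p % 2 = 1 := by
    intro p hp
    have h1 := Nat.dvd_of_mem_primeFactors hp
    by_contra hc
    have h2 : 2 ∣ p := by omega
    have := h2.trans h1
    omega
  rw [Finset.sum_coe_sort n.primeFactors (fun p => em p)]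
  rcases prod_mod n.primeFactors hodd with h | h
  · rw [Nat.prod_primeFactors_of_squarefree hn] at h
    omega
  · exact h.2

end base

section signs

variable {n : ℕ}

/-- symmetric difference of the exponents -/
noncomputable def wq (p q : n.primeFactors) : ZMod 2 := if p = q then 0 else wm p q

theorem odd_of {n : ℕ} (h4 : n % 4 = 3) (p : n.primeFactors) : (p : ℕ) % 2 = 1 := by
  have h1 := Nat.dvd_of_mem_primeFactors p.2
  by_contra hc
  have h2 : 2 ∣ (p : ℕ) := by omega
  have := h2.trans h1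
  omega

theorem cop {p q : n.primeFactors} (h : p ≠ q) : Nat.Coprime (p : ℕ) q := by
  rw [Nat.coprime_primes (Nat.prime_of_mem_primeFactors p.2) (Nat.prime_of_mem_primeFactors q.2)]
  exact fun h1 => h (Subtype.ext h1)

theorem wq_add (h4 : n % 4 = 3) (p q : n.primeFactors) :
    wq p q + wq q p = em p * em q + (if p = q then em p else 0) := by
  unfold wq
  by_cases h : p = q
  · subst h
    rw [if_pos rfl, if_pos rfl, add_zero]
    unfold em
    split_ifs <;> decide
  · rw [if_neg h, if_neg (Ne.symm h), if_neg h, add_zero,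
      wm_add (odd_of h4 p) (odd_of h4 q) (cop h)]

theorem prod_eq_sg (F : n.primeFactors → n.primeFactors → ZMod 2) (hF : ∀ p, F p p = 0) :
    ∏ p : n.primeFactors, ∏ q : n.primeFactors, (if F p q = 1 then J p q else 1) =
      sg (∑ p, ∑ q, wq p q * F p q) := by
  rw [sg_sum]
  refine Finset.prod_congr rfl fun p _ => ?_
  rw [sg_sum]
  refine Finset.prod_congr rfl fun q _ => ?_
  by_cases h : p = q
  · subst h
    rw [hF, if_neg (by decide), mul_zero, sg_zero]
  · rcases z2_cases (F p q) with h1 | h1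
    · rw [h1, if_neg (by decide), mul_zero, sg_zero]
    · rw [h1, if_pos rfl, mul_one]
      unfold wq
      rw [if_neg h, sg_wm (cop h)]

theorem sum_swap (F : n.primeFactors → n.primeFactors → ZMod 2) :
    ∑ p, ∑ q, wq p q * (F p q + F q p) = ∑ p, ∑ q, (wq p q + wq q p) * F p q := by
  have h1 : ∑ p, ∑ q, wq p q * (F p q + F q p) =
      ∑ p, ∑ q, wq p q * F p q + ∑ p, ∑ q, wq p q * F q p := by
    rw [← Finset.sum_add_distrib]
    refine Finset.sum_congr rfl fun p _ => ?_
    rw [← Finset.sum_add_distrib]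
    exact Finset.sum_congr rfl fun q _ => mul_add _ _ _
  have h2 : ∑ p, ∑ q, (wq p q + wq q p) * F p q =
      ∑ p, ∑ q, wq p q * F p q + ∑ p, ∑ q, wq q p * F p q := by
    rw [← Finset.sum_add_distrib]
    refine Finset.sum_congr rfl fun p _ => ?_
    rw [← Finset.sum_add_distrib]
    exact Finset.sum_congr rfl fun q _ => add_mul _ _ _
  rw [h1, h2]
  congr 1
  exact Finset.sum_comm

theorem em_sq (p : ℕ) : em p * em p = em p := by
  unfold em; split_ifs <;> decide

theorem sum_lin (hn : Squarefree n) (h4 : n % 4 = 3) (s : n.primeFactors → ZMod 2) :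
    ∑ p, ∑ q, wq p q * (s p + s q) = 0 := by
  rw [sum_swap (fun p _ => s p)]
  refine Finset.sum_eq_zero fun p _ => ?_
  rw [← Finset.sum_mul]
  have h1 : ∑ q, (wq p q + wq q p) = 0 := by
    rw [Finset.sum_congr rfl fun q _ => wq_add h4 p q, Finset.sum_add_distrib, ← Finset.mul_sum,
      sum_em hn h4, Finset.sum_ite_eq, if_pos (Finset.mem_univ _), mul_one]
    exact CharTwo.add_self_eq_zero _
  rw [h1, zero_mul]

/-- the coefficients of `t` -/
noncomputable def zc (s : n.primeFactors → ZMod 2) (q : n.primeFactors) : ZMod 2 :=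
  ∑ p : n.primeFactors, (em p * em q + (if p = q then em p else 0)) * s p

theorem sum_bil (h4 : n % 4 = 3) (s t : n.primeFactors → ZMod 2) :
    ∑ p, ∑ q, wq p q * (s p * t q + s q * t p) =
      ∑ q, t q * zc s q := by
  rw [sum_swap (fun p q => s p * t q), Finset.sum_comm]
  refine Finset.sum_congr rfl fun q _ => ?_
  unfold zc
  rw [Finset.mul_sum]
  refine Finset.sum_congr rfl fun p _ => ?_
  rw [wq_add h4 p q]
  ring

theorem sum_sg_nonneg {κ : Type*} [Fintype κ] [DecidableEq κ] (β : ZMod 2) (z : κ → ZMod 2) :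
    0 ≤ ∑ t : κ → ZMod 2, sg (β * ∑ q, t q * z q) := by
  have h1 : ∀ t : κ → ZMod 2, sg (β * ∑ q, t q * z q) = ∏ q, sg (β * (t q * z q)) := by
    intro t
    rw [Finset.mul_sum, sg_sum]
  simp_rw [h1]
  have h2 := Finset.prod_univ_sum (fun _ : κ => (Finset.univ : Finset (ZMod 2)))
    (fun q a => sg (β * (a * z q)))
  rw [Fintype.piFinset_univ] at h2
  rw [← h2]
  refine Finset.prod_nonneg fun q _ => ?_
  have h3 : ∀ f : ZMod 2 → ℝ, ∑ a : ZMod 2, f a = f 0 + f 1 := fun f => Fin.sum_univ_two f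
  rw [h3, zero_mul, mul_zero, sg_zero]
  exact sg_nonneg_add _

end signs

section main

variable {ι : Type*} [Fintype ι] [DecidableEq ι]

theorem mainN_eq (N : ℕ) (P : ι → ι → ZMod 2) (U : Finset ι) {n : ℕ} (hn : Squarefree n) :
    mainN N P U n = (1 / (N : ℝ)) ^ n.primeFactors.card *
      ∑ c ∈ Fintype.piFinset (fun _ : n.primeFactors => U),
        ∏ p : n.primeFactors, ∏ q : n.primeFactors, (if P (c p) (c q) = 1 then J p q else 1) := by
  unfold mainN
  rw [sum_supp hn U (wtP P)]
  congr 1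
  exact Finset.sum_congr rfl fun c _ => wtP_Dc P c

omit [DecidableEq ι] in
theorem wtP_abs (P : ι → ι → ZMod 2) (D : ι → ℕ) : |wtP P D| ≤ 1 := by
  unfold wtP
  rw [Finset.abs_prod]
  refine Finset.prod_le_one (fun _ _ => abs_nonneg _) fun u _ => ?_
  rw [Finset.abs_prod]
  refine Finset.prod_le_one (fun _ _ => abs_nonneg _) fun v _ => ?_
  split_ifs
  · exact Vale.Agent.P014.H580.J_abs _ _
  · norm_num

/-- L3a -/
theorem main_abs (N : ℕ) (hN : 1 ≤ N)
    (P : ι → ι → ZMod 2) (U : Finset ι) (hU : U.card ≤ N) {n : ℕ} (hn : Squarefree n) :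
    |mainN N P U n| ≤ 1 := by
  have hN0 : (0 : ℝ) < N := by exact_mod_cast hN
  unfold mainN
  rw [sum_supp hn U (wtP P), abs_mul, abs_of_nonneg (by positivity : (0 : ℝ) ≤ (1 / (N : ℝ)) ^ _)]
  have h1 : |∑ c ∈ Fintype.piFinset (fun _ : n.primeFactors => U), wtP P (Dc c)| ≤
      (N : ℝ) ^ n.primeFactors.card := by
    refine (Finset.abs_sum_le_sum_abs _ _).trans ?_
    refine (Finset.sum_le_card_nsmul _ _ 1 fun c _ => wtP_abs P _).trans ?_
    rw [Fintype.card_piFinset, Finset.prod_const, Finset.card_univ, Fintype.card_coe, nsmul_eq_mul,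
      mul_one]
    push_cast
    gcongr
  calc (1 / (N : ℝ)) ^ n.primeFactors.card *
        |∑ c ∈ Fintype.piFinset (fun _ : n.primeFactors => U), wtP P (Dc c)|
      ≤ (1 / (N : ℝ)) ^ n.primeFactors.card * (N : ℝ) ^ n.primeFactors.card := by gcongr
    _ = 1 := by
      rw [← mul_pow, one_div, inv_mul_cancel₀ hN0.ne', one_pow]

/-- the sets which contribute exactly one -/
theorem main_good (N : ℕ) (hN : 1 ≤ N) (P : ι → ι → ZMod 2) (U : Finset ι) (hU : U.card = N)
    (hg : ∀ u ∈ U, ∀ v ∈ U, ∀ w ∈ U, P u v = P u w + P v w) {n : ℕ} (hn : Squarefree n)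
    (h4 : n % 4 = 3) : mainN N P U n = 1 := by
  have hN0 : (0 : ℝ) < N := by exact_mod_cast hN
  obtain ⟨w, hw⟩ : U.Nonempty := by
    rw [← Finset.card_pos]; omega
  rw [mainN_eq N P U hn]
  have h1 : ∀ c ∈ Fintype.piFinset (fun _ : n.primeFactors => U),
      ∏ p : n.primeFactors, ∏ q : n.primeFactors, (if P (c p) (c q) = 1 then J p q else 1) =
        1 := by
    intro c hc
    rw [Fintype.mem_piFinset] at hc
    rw [prod_eq_sg (fun p q => P (c p) (c q)) (fun p => by
      rw [hg _ (hc p) _ (hc p) _ (hc p)]; exact CharTwo.add_self_eq_zero _)]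
    have h2 : ∑ p, ∑ q, wq p q * P (c p) (c q) = 0 := by
      rw [← sum_lin hn h4 (fun p => P (c p) w)]
      refine Finset.sum_congr rfl fun p _ => Finset.sum_congr rfl fun q _ => ?_
      rw [hg _ (hc p) _ (hc q) _ hw]
    rw [h2, sg_zero]
  rw [Finset.sum_congr rfl h1, Finset.sum_const, Fintype.card_piFinset, Finset.prod_const,
    Finset.card_univ, Fintype.card_coe, hU, nsmul_eq_mul, mul_one]
  push_cast
  rw [← mul_pow, one_div, inv_mul_cancel₀ hN0.ne', one_pow]

/-- nonnegativity for a parametrised set -/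
theorem main_nonneg (N : ℕ) (P : ι → ι → ZMod 2) (φ : ZMod 2 × ZMod 2 → ι)
    (hφ : Function.Injective φ) (e₁ e₂ e₃ : ZMod 2)
    (hP : ∀ x y, P (φ x) (φ y) =
      e₁ * (x.1 + y.1) + e₂ * (x.2 + y.2) + e₃ * (x.1 * y.2 + y.1 * x.2))
    {n : ℕ} (hn : Squarefree n) (h4 : n % 4 = 3) :
    0 ≤ mainN N P (univ.image φ) n := by
  rw [mainN_eq N P _ hn]
  refine mul_nonneg (by positivity) ?_
  have h1 : ∑ c ∈ Fintype.piFinset (fun _ : n.primeFactors => univ.image φ),
        ∏ p : n.primeFactors, ∏ q : n.primeFactors, (if P (c p) (c q) = 1 then J p q else 1) =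
      ∑ d : n.primeFactors → ZMod 2 × ZMod 2,
        ∏ p : n.primeFactors, ∏ q : n.primeFactors,
          (if P (φ (d p)) (φ (d q)) = 1 then J p q else 1) := by
    symm
    refine Finset.sum_bij (fun d _ => fun p => φ (d p)) ?_ ?_ ?_ (fun _ _ => rfl)
    · intro d _
      rw [Fintype.mem_piFinset]
      exact fun p => Finset.mem_image_of_mem _ (Finset.mem_univ _)
    · intro d _ d' _ h
      funext p
      exact hφ (congrFun h p)
    · intro c hc
      rw [Fintype.mem_piFinset] at hc
      have h2 : ∀ p, ∃ x, φ x = c p := fun p => by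
        obtain ⟨x, _, hx⟩ := Finset.mem_image.mp (hc p)
        exact ⟨x, hx⟩
      choose d hd using h2
      exact ⟨d, Finset.mem_univ _, funext hd⟩
  rw [h1, ← Equiv.sum_comp (Equiv.arrowProdEquivProdArrow n.primeFactors (fun _ => ZMod 2)
    (fun _ => ZMod 2)).symm, Fintype.sum_prod_type]
  refine Finset.sum_nonneg fun s _ => ?_
  have h3 : ∀ t : n.primeFactors → ZMod 2,
      ∏ p : n.primeFactors, ∏ q : n.primeFactors,
        (if P (φ (((Equiv.arrowProdEquivProdArrow n.primeFactors (fun _ => ZMod 2)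
          (fun _ => ZMod 2)).symm (s, t)) p)) (φ (((Equiv.arrowProdEquivProdArrow n.primeFactors
          (fun _ => ZMod 2) (fun _ => ZMod 2)).symm (s, t)) q)) = 1 then J p q else 1) =
      sg (e₃ * ∑ q, t q * zc s q) := by
    intro t
    have h5 : ∀ p : n.primeFactors, ((Equiv.arrowProdEquivProdArrow n.primeFactors
      (fun _ => ZMod 2) (fun _ => ZMod 2)).symm (s, t)) p = (s p, t p) := fun p => rfl
    simp only [h5]
    rw [prod_eq_sg (fun p q => P (φ (s p, t p)) (φ (s q, t q))) (fun p => by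
      rw [hP]
      simp only [CharTwo.add_self_eq_zero, mul_zero])]
    congr 1
    rw [← sum_bil h4 s t]
    have h6 : ∑ p, ∑ q, wq p q * P (φ (s p, t p)) (φ (s q, t q)) =
        e₁ * ∑ p, ∑ q, wq p q * (s p + s q) + e₂ * ∑ p, ∑ q, wq p q * (t p + t q) +
          e₃ * ∑ p, ∑ q, wq p q * (s p * t q + s q * t p) := by
      simp only [Finset.mul_sum, ← Finset.sum_add_distrib]
      refine Finset.sum_congr rfl fun p _ => Finset.sum_congr rfl fun q _ => ?_
      rw [hP]
      ring
    rw [h6, sum_lin hn h4, sum_lin hn h4, mul_zero, mul_zero, zero_add, zero_add]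
  rw [Finset.sum_congr rfl fun t _ => h3 t]
  exact sum_sg_nonneg _ _

end main

end Vale.Agent.P017.H443
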