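import Vale.Agent.P017.H443.L3

/-!
# L3: the main terms of the first two moments
-/

namespace Vale.Agent.P017.H443

open Finset Vale.Agent.P014.FM Vale.Agent.P017.H506

theorem mem_UsN {ι : Type*} [Fintype ι] (P : ι → ι → ZMod 2) (N : ℕ) (U : Finset ι) :
    U ∈ UsN P N ↔ U.card = N ∧ Unl P U := by
  unfold UsN
  simp only [Finset.mem_filter, Finset.mem_univ, true_and]

/-- the unlinked pairs for `k = 1` -/
def G1 : Finset (Finset (Ix 1)) :=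
  {{![(0, 0)], ![(0, 1)]}, {![(1, 0)], ![(1, 1)]}, {![(0, 0)], ![(1, 0)]}, {![(0, 1)], ![(1, 1)]}}

theorem G1_card : G1.card = 4 := by decide

/-- test -/
def tst (U : Finset (Ix 1)) : Bool :=
  decide (U.card = 2) && decide (∀ u ∈ U, ∀ v ∈ U, Pk 1 u v = Pk 1 v u)

theorem tst_eq : ∀ U : Finset (Ix 1), tst U = decide (U ∈ G1) := by decide

theorem G1_mem (U : Finset (Ix 1)) : (U.card = 2 ∧ ∀ u ∈ U, ∀ v ∈ U, Pk 1 u v = Pk 1 v u) ↔
    U ∈ G1 := by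
  have h := tst_eq U
  unfold tst at h
  rw [← decide_eq_true_iff (p := U ∈ G1), ← h, Bool.and_eq_true, decide_eq_true_iff,
    decide_eq_true_iff]

theorem G1_good : ∀ U ∈ G1, ∀ u ∈ U, ∀ v ∈ U, ∀ w ∈ U, Pk 1 u v = Pk 1 u w + Pk 1 v w := by
  decide

/-- L3b -/
theorem main_one {n : ℕ} (hn : Squarefree n) (h4 : n % 4 = 3) :
    ∑ U ∈ UsN (Pk 1) 2, mainN 2 (Pk 1) U n = 4 := by
  have h1 : UsN (Pk 1) 2 = G1 := by
    ext U
    rw [mem_UsN, ← G1_mem]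
    rfl
  rw [h1, Finset.sum_congr rfl fun U hU => main_good 2 (by norm_num) (Pk 1) U
    ((G1_mem U).mpr hU).1 (G1_good U hU) hn h4, Finset.sum_const, G1_card]
  norm_num

/-- quadratic form -/
def q2 (w : Ix 2) : ZMod 2 := (w 0).1 * (w 0).2 + (w 1).1 * (w 1).2

theorem Pk2 (u v : Ix 2) :
    Pk 2 u v = (v 0).2 * ((u 0).1 + (v 0).1) + (v 1).2 * ((u 1).1 + (v 1).1) := by
  unfold Pk P1; rw [Fin.sum_univ_two]

theorem two_z2 : (2 : ZMod 2) = 0 := by decide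

theorem q2_of_comm {u v : Ix 2} (h : Pk 2 u v = Pk 2 v u) : q2 (u + v) = 0 := by
  rw [Pk2, Pk2] at h
  unfold q2
  simp only [Pi.add_apply, Prod.fst_add, Prod.snd_add]
  linear_combination h + ((u 0).2 * ((u 0).1 + (v 0).1) + (u 1).2 * ((u 1).1 + (v 1).1)) * two_z2

/-- quadratic form on pairs -/
def q4 (x : (ZMod 2 × ZMod 2) × (ZMod 2 × ZMod 2)) : ZMod 2 := x.1.1 * x.1.2 + x.2.1 * x.2.2

/-- test -/
def c1 (b : (ZMod 2 × ZMod 2) × (ZMod 2 × ZMod 2)) : Bool := decide (q4 b = 0) && decide (b ≠ 0)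

/-- test -/
def c2 (b g : (ZMod 2 × ZMod 2) × (ZMod 2 × ZMod 2)) : Bool :=
  c1 g && (decide (g ≠ b) && decide (q4 (b + g) = 0))

/-- test -/
def c3 (b g h : (ZMod 2 × ZMod 2) × (ZMod 2 × ZMod 2)) : Bool :=
  c2 b h && (decide (h ≠ g) && decide (q4 (g + h) = 0))

/-- test -/
def a3 (b g : (ZMod 2 × ZMod 2) × (ZMod 2 × ZMod 2)) : Bool :=
  decide (∀ h : (ZMod 2 × ZMod 2) × (ZMod 2 × ZMod 2), c3 b g h = true → h = b + g)

/-- test -/
def a2 (b : (ZMod 2 × ZMod 2) × (ZMod 2 × ZMod 2)) : Bool :=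
  decide (∀ g : (ZMod 2 × ZMod 2) × (ZMod 2 × ZMod 2), c2 b g = true → a3 b g = true)

theorem a2_true : ∀ b : (ZMod 2 × ZMod 2) × (ZMod 2 × ZMod 2), c1 b = true → a2 b = true := by
  decide

theorem dec4 (b : (ZMod 2 × ZMod 2) × (ZMod 2 × ZMod 2)) (hb : c1 b = true)
    (g : (ZMod 2 × ZMod 2) × (ZMod 2 × ZMod 2)) (hg : c2 b g = true)
    (h : (ZMod 2 × ZMod 2) × (ZMod 2 × ZMod 2)) (hh : c3 b g h = true) : h = b + g :=
  of_decide_eq_true (of_decide_eq_true (a2_true b hb) g hg) h hh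

/-- the coordinates -/
def to4 (w : Ix 2) : (ZMod 2 × ZMod 2) × (ZMod 2 × ZMod 2) := (w 0, w 1)

theorem to4_inj {v w : Ix 2} (h : to4 v = to4 w) : v = w := by
  unfold to4 at h
  have h1 := congrArg Prod.fst h
  have h2 := congrArg Prod.snd h
  funext i
  fin_cases i
  · exact h1
  · exact h2

theorem dec2 {b g h : Ix 2} (hb : q2 b = 0) (hb0 : b ≠ 0) (hg : q2 g = 0) (hg0 : g ≠ 0)
    (hgb : g ≠ b) (hbg : q2 (b + g) = 0) (hh : q2 h = 0) (hh0 : h ≠ 0) (hhb : h ≠ b)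
    (hhg : h ≠ g) (hbh : q2 (b + h) = 0) (hgh : q2 (g + h) = 0) : h = b + g := by
  apply to4_inj
  have k : ∀ {p : Prop} [Decidable p], p → decide p = true := fun h => decide_eq_true h
  have h1 : ∀ w : Ix 2, q2 w = 0 → w ≠ 0 → c1 (to4 w) = true := fun w e1 e2 =>
    Bool.and_eq_true_iff.mpr ⟨k e1, k (fun e => e2 (to4_inj e))⟩
  have h2 : ∀ v w : Ix 2, q2 w = 0 → w ≠ 0 → w ≠ v → q2 (v + w) = 0 →
      c2 (to4 v) (to4 w) = true := fun v w e1 e2 e3 e4 =>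
    Bool.and_eq_true_iff.mpr ⟨h1 w e1 e2, Bool.and_eq_true_iff.mpr
      ⟨k (fun e => e3 (to4_inj e)), k e4⟩⟩
  exact dec4 (to4 b) (h1 b hb hb0) (to4 g) (h2 b g hg hg0 hgb hbg) (to4 h)
    (Bool.and_eq_true_iff.mpr ⟨h2 b h hh hh0 hhb hbh, Bool.and_eq_true_iff.mpr
      ⟨k (fun e => hhg (to4_inj e)), k hgh⟩⟩)

/-- the parametrisation -/
def ph (a b g : Ix 2) (x : ZMod 2 × ZMod 2) : Ix 2 := a + x.1 • b + x.2 • g

theorem ph_P (a b g : Ix 2) (hb : q2 b = 0) (hg : q2 g = 0) (hbg : q2 (b + g) = 0)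
    (x y : ZMod 2 × ZMod 2) :
    Pk 2 (ph a b g x) (ph a b g y) =
      ((a 0).2 * (b 0).1 + (a 1).2 * (b 1).1) * (x.1 + y.1) +
      ((a 0).2 * (g 0).1 + (a 1).2 * (g 1).1) * (x.2 + y.2) +
      ((g 0).2 * (b 0).1 + (g 1).2 * (b 1).1) * (x.1 * y.2 + y.1 * x.2) := by
  rw [Pk2]
  unfold q2 at hb hg hbg
  unfold ph
  simp only [Pi.add_apply, Prod.fst_add, Prod.snd_add, Pi.smul_apply, Prod.smul_fst,
    Prod.smul_snd, smul_eq_mul] at hbg ⊢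
  linear_combination y.1 * (x.1 + y.1) * hb + y.2 * (x.2 + y.2) * hg +
    y.1 * (x.2 + y.2) * (hbg - hb - hg) +
    ((a 0).1*(a 0).2 + (a 0).1*(b 0).2*y.1 + (a 0).1*(g 0).2*y.2 + (a 1).1*(a 1).2 +
      (a 1).1*(b 1).2*y.1 + (a 1).1*(g 1).2*y.2 + (-1)*(b 0).1*(g 0).2*x.2*y.1 +
      (-1)*(b 1).1*(g 1).2*x.2*y.1) * two_z2

theorem image_ph (a b g : Ix 2) :
    univ.image (ph a b g) = {a, a + b, a + g, a + (b + g)} := by
  have h : (univ : Finset (ZMod 2 × ZMod 2)) = {(0, 0), (1, 0), (0, 1), (1, 1)} := by decide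
  rw [h]
  simp only [Finset.image_insert, Finset.image_singleton, ph, zero_smul, one_smul, add_zero,
    add_assoc]

theorem structure_of {U : Finset (Ix 2)} (hU : U.card = 4) (hu : Unl (Pk 2) U) :
    ∃ a b g : Ix 2, q2 b = 0 ∧ q2 g = 0 ∧ q2 (b + g) = 0 ∧ U = univ.image (ph a b g) := by
  obtain ⟨a, t, hat, rfl, ht⟩ := Finset.card_eq_succ.mp hU
  obtain ⟨x, y, z, hxy, hxz, hyz, rfl⟩ := Finset.card_eq_three.mp ht
  have hm : ∀ u ∈ insert a ({x, y, z} : Finset (Ix 2)),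
      ∀ v ∈ insert a ({x, y, z} : Finset (Ix 2)), q2 (u + v) = 0 :=
    fun u hu' v hv' => q2_of_comm (hu u hu' v hv')
  simp only [Finset.mem_insert, Finset.mem_singleton, not_or] at hat
  have add_self : ∀ w : Ix 2, w + w = 0 := fun w => by
    funext i
    exact Prod.ext (CharTwo.add_self_eq_zero _) (CharTwo.add_self_eq_zero _)
  have hax := hm x (by simp) a (by simp)
  have hay := hm y (by simp) a (by simp)
  have haz := hm z (by simp) a (by simp)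
  have hxy' := hm x (by simp) y (by simp)
  have hxz' := hm x (by simp) z (by simp)
  have hyz' := hm y (by simp) z (by simp)
  have e : ∀ u v : Ix 2, (u + a) + (v + a) = u + v := fun u v => by
    calc (u + a) + (v + a) = u + v + (a + a) := by abel
      _ = u + v := by rw [add_self, add_zero]
  have ne0 : ∀ u : Ix 2, a ≠ u → u + a ≠ 0 := fun u hu' h => hu' (by
    calc a = 0 + a := (zero_add _).symm
      _ = (u + a) + a := by rw [h]
      _ = u + (a + a) := add_assoc _ _ _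
      _ = u := by rw [add_self, add_zero])
  have nee : ∀ u v : Ix 2, u ≠ v → u + a ≠ v + a := fun u v h h' => h (add_right_cancel h')
  have key := dec2 (b := x + a) (g := y + a) (h := z + a) hax (ne0 x hat.1) hay (ne0 y hat.2.1)
    (nee y x hxy.symm) (by rw [e]; exact hxy') haz (ne0 z hat.2.2) (nee z x hxz.symm)
    (nee z y hyz.symm) (by rw [e]; exact hxz') (by rw [e]; exact hyz')
  refine ⟨a, x + a, y + a, hax, hay, by rw [e]; exact hxy', ?_⟩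
  have e2 : ∀ u : Ix 2, a + (u + a) = u := fun u => by
    calc a + (u + a) = u + (a + a) := by abel
      _ = u := by rw [add_self, add_zero]
  rw [image_ph, e2, e2, ← key, e2]

theorem ph_inj_of {a b g : Ix 2} (h : (univ.image (ph a b g)).card = 4) :
    Function.Injective (ph a b g) := by
  have h1 : (univ.image (ph a b g)).card = (univ : Finset (ZMod 2 × ZMod 2)).card := by
    rw [h]; decide
  exact fun x y hxy => Finset.card_image_iff.mp h1 (Finset.mem_coe.mpr (Finset.mem_univ _))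
    (Finset.mem_coe.mpr (Finset.mem_univ _)) hxy

/-- nonnegativity of all terms of the second moment -/
theorem nonneg_two {U : Finset (Ix 2)} (hU : U ∈ UsN (Pk 2) 4) {n : ℕ} (hn : Squarefree n)
    (h4 : n % 4 = 3) : 0 ≤ mainN 4 (Pk 2) U n := by
  rw [mem_UsN] at hU
  obtain ⟨a, b, g, hb, hg, hbg, rfl⟩ := structure_of hU.1 hU.2
  exact main_nonneg 4 (Pk 2) (ph a b g) (ph_inj_of hU.1) _ _ _ (ph_P a b g hb hg hbg) hn h4

/-- coordinates -/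
def vv (a b c d : ZMod 2) : Ix 2 := ![(a, b), (c, d)]

/-- twenty triples -/
def T20 : List (Ix 2 × Ix 2 × Ix 2) :=
  [(vv 0 0 0 0, vv 1 0 0 0, vv 0 0 1 0), (vv 0 1 0 0, vv 1 0 0 0, vv 0 0 1 0),
   (vv 0 0 0 1, vv 1 0 0 0, vv 0 0 1 0), (vv 0 1 0 1, vv 1 0 0 0, vv 0 0 1 0),
   (vv 0 0 0 0, vv 0 1 0 0, vv 0 0 0 1), (vv 1 0 0 0, vv 0 1 0 0, vv 0 0 0 1),
   (vv 0 0 1 0, vv 0 1 0 0, vv 0 0 0 1), (vv 1 0 1 0, vv 0 1 0 0, vv 0 0 0 1),
   (vv 0 0 0 0, vv 1 0 0 0, vv 0 0 0 1), (vv 0 1 0 0, vv 1 0 0 0, vv 0 0 0 1),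
   (vv 0 0 1 0, vv 1 0 0 0, vv 0 0 0 1), (vv 0 1 1 0, vv 1 0 0 0, vv 0 0 0 1),
   (vv 0 0 0 0, vv 0 1 0 0, vv 0 0 1 0), (vv 1 0 0 0, vv 0 1 0 0, vv 0 0 1 0),
   (vv 0 0 0 1, vv 0 1 0 0, vv 0 0 1 0), (vv 1 0 0 1, vv 0 1 0 0, vv 0 0 1 0),
   (vv 0 0 0 0, vv 1 0 1 0, vv 0 1 0 1), (vv 1 0 0 0, vv 1 0 1 0, vv 0 1 0 1),
   (vv 0 1 0 0, vv 1 0 1 0, vv 0 1 0 1), (vv 1 1 0 0, vv 1 0 1 0, vv 0 1 0 1)]

/-- the set of a triple -/
def US (t : Ix 2 × Ix 2 × Ix 2) : Finset (Ix 2) :=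
  {t.1, t.1 + t.2.1, t.1 + t.2.2, t.1 + (t.2.1 + t.2.2)}

theorem T20_q : ∀ t ∈ T20, q2 t.2.1 = 0 ∧ q2 t.2.2 = 0 ∧ q2 (t.2.1 + t.2.2) = 0 ∧
    (t.2.2 0).2 * (t.2.1 0).1 + (t.2.2 1).2 * (t.2.1 1).1 = 0 ∧ (US t).card = 4 := by
  decide

theorem T20_nodup : (T20.map US).Nodup := by
  decide

theorem T20_good : ∀ t ∈ T20, (US t).card = 4 ∧
    ∀ u ∈ US t, ∀ v ∈ US t, ∀ w ∈ US t, Pk 2 u v = Pk 2 u w + Pk 2 v w := by
  rintro ⟨a, b, g⟩ ht
  obtain ⟨hb, hg, hbg, he, hc⟩ := T20_q _ ht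
  refine ⟨hc, ?_⟩
  have h1 : US (a, b, g) = univ.image (ph a b g) := (image_ph a b g).symm
  rw [h1]
  intro u hu v hv w hw
  obtain ⟨x, _, rfl⟩ := Finset.mem_image.mp hu
  obtain ⟨y, _, rfl⟩ := Finset.mem_image.mp hv
  obtain ⟨z, _, rfl⟩ := Finset.mem_image.mp hw
  rw [ph_P a b g hb hg hbg, ph_P a b g hb hg hbg, ph_P a b g hb hg hbg]
  simp only at he
  rw [he]
  linear_combination (-(((a 0).2 * (b 0).1 + (a 1).2 * (b 1).1) * z.1 +
    ((a 0).2 * (g 0).1 + (a 1).2 * (g 1).1) * z.2)) * two_z2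

theorem comm_of_good {U : Finset (Ix 2)}
    (h : ∀ u ∈ U, ∀ v ∈ U, ∀ w ∈ U, Pk 2 u v = Pk 2 u w + Pk 2 v w) : Unl (Pk 2) U := by
  intro u hu v hv
  rw [h u hu v hv u hu, h u hu u hu u hu, CharTwo.add_self_eq_zero, zero_add]

/-- L3c -/
theorem main_two {n : ℕ} (hn : Squarefree n) (h4 : n % 4 = 3) :
    20 ≤ ∑ U ∈ UsN (Pk 2) 4, mainN 4 (Pk 2) U n := by
  have h1 : (T20.map US).toFinset ⊆ UsN (Pk 2) 4 := by
    intro U hU
    rw [List.mem_toFinset, List.mem_map] at hU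
    obtain ⟨t, ht, rfl⟩ := hU
    rw [mem_UsN]
    exact ⟨(T20_good t ht).1, comm_of_good (T20_good t ht).2⟩
  refine le_trans (le_of_eq ?_) (Finset.sum_le_sum_of_subset_of_nonneg h1
    (fun U hU _ => nonneg_two hU hn h4))
  have h2 : ∀ U ∈ (T20.map US).toFinset, mainN 4 (Pk 2) U n = 1 := by
    intro U hU
    rw [List.mem_toFinset, List.mem_map] at hU
    obtain ⟨t, ht, rfl⟩ := hU
    exact main_good 4 (by norm_num) (Pk 2) _ (T20_good t ht).1 (T20_good t ht).2 hn h4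
  rw [Finset.sum_congr rfl h2, Finset.sum_const, List.toFinset_card_of_nodup T20_nodup,
    List.length_map]
  norm_num [T20]

end Vale.Agent.P017.H443
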