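import Vale.Agent.P017.H506.R0
import Vale.Agent.P017.H506.S5

/-!
# Row T10: the number of triples is a power of two, and at least two
-/

namespace Vale.Agent.P017.H443.T10

open Finset Function Vale.Agent.P014.FM Vale.Agent.P017.H506
open Vale.Agent.P017.H915
open Vale.Agent.P014.H698 (J_prod_left zmod2_cases)
open Vale.Agent.P014.H580 (J_mul_left)

/-- a sign -/
def PM (z : ℝ) : Prop := z = 1 ∨ z = -1

/-- the logarithm of a sign -/
noncomputable def lg (z : ℝ) : ZMod 2 := if z = -1 then 1 else 0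

theorem lg_one : lg 1 = 0 := if_neg (by norm_num)

theorem lg_neg : lg (-1) = 1 := if_pos rfl

theorem PM.one : PM 1 := Or.inl rfl

theorem PM.mul {z w : ℝ} (hz : PM z) (hw : PM w) : PM (z * w) := by
  rcases hz with rfl | rfl <;> rcases hw with rfl | rfl <;> unfold PM <;> norm_num

theorem PM.pow {z : ℝ} (hz : PM z) (m : ℕ) : PM (z ^ m) := by
  induction m with
  | zero => rw [pow_zero]; exact PM.one
  | succ m ih => rw [pow_succ]; exact ih.mul hz

theorem lg_mul {z w : ℝ} (hz : PM z) (hw : PM w) : lg (z * w) = lg z + lg w := by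
  rcases hz with rfl | rfl <;> rcases hw with rfl | rfl
  · rw [one_mul, lg_one, zero_add]
  · rw [one_mul, lg_one, zero_add]
  · rw [mul_one, lg_one, add_zero]
  · rw [show (-1 : ℝ) * -1 = 1 by norm_num, lg_one, lg_neg]; decide

theorem lg_pow {z : ℝ} (hz : PM z) (m : ℕ) : lg (z ^ m) = m * lg z := by
  induction m with
  | zero => rw [pow_zero, lg_one, Nat.cast_zero, zero_mul]
  | succ m ih => rw [pow_succ, lg_mul (hz.pow m) hz, ih, Nat.cast_succ, add_mul, one_mul]

theorem eq_one_iff {z : ℝ} (hz : PM z) : z = 1 ↔ lg z = 0 := by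
  rcases hz with rfl | rfl
  · rw [lg_one]; simp
  · rw [lg_neg]
    constructor
    · intro h; norm_num at h
    · intro h; exact absurd h (by decide)

theorem PM.prod {κ : Type*} (s : Finset κ) (f : κ → ℝ) (hf : ∀ i ∈ s, PM (f i)) :
    PM (∏ i ∈ s, f i) :=
  Finset.prod_induction f PM (fun _ _ => PM.mul) PM.one hf

theorem lg_prod {κ : Type*} (s : Finset κ) (f : κ → ℝ) (hf : ∀ i ∈ s, PM (f i)) :
    lg (∏ i ∈ s, f i) = ∑ i ∈ s, lg (f i) := by
  classical
  induction s using Finset.induction_on with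
  | empty => rw [Finset.prod_empty, Finset.sum_empty, lg_one]
  | insert i s hi ih =>
    have h1 : ∀ j ∈ s, PM (f j) := fun j hj => hf j (Finset.mem_insert_of_mem hj)
    rw [Finset.prod_insert hi, Finset.sum_insert hi,
      lg_mul (hf i (Finset.mem_insert_self _ _)) (PM.prod s f h1), ih h1]

theorem lg_ite (x : ZMod 2) (z : ℝ) : lg (if x = 1 then z else 1) = x * lg z := by
  rcases zmod2_cases x with h | h
  · rw [h, if_neg (by decide), lg_one, zero_mul]
  · rw [h, if_pos rfl, one_mul]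

theorem J_pm' {p q : ℕ} (h : Nat.Coprime p q) : PM (J p q) := by
  have h1 : Int.gcd (p : ℤ) (q : ℤ) = 1 := by
    rw [Int.gcd_natCast_natCast]; exact h
  unfold Vale.Agent.P014.H580.J
  rcases jacobiSym.eq_one_or_neg_one h1 with h2 | h2
  · left; rw [h2]; norm_num
  · right; rw [h2]; norm_num

theorem J_pow_left (a m e : ℕ) : J (a ^ m) e = J a e ^ m := by
  induction m with
  | zero =>
    rw [pow_zero, pow_zero]
    unfold Vale.Agent.P014.H580.J
    rw [Nat.cast_one, jacobiSym.one_left, Int.cast_one]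
  | succ m ih => rw [pow_succ, pow_succ, J_mul_left, ih]

theorem lg_eps {n : ℕ} (s : n.primeFactors → ZMod 2) (p : n.primeFactors) :
    lg (eps s p) = S5.TT n s p := by
  have h1 := S5.eps_iff s p
  have h2 := eq_one_iff (eps_pm s p)
  rw [h1] at h2
  rcases zmod2_cases (lg (eps s p)) with h3 | h3
  · rw [h3, h2.2 h3]
  · rcases zmod2_cases (S5.TT n s p) with h4 | h4
    · rw [h2.1 h4] at h3
      exact absurd h3 (by decide)
    · rw [h3, h4]

/-- exponent of two in the radicand -/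
def tw (tp : ℕ) : ZMod 2 := if tp = 2 then 1 else 0

/-- the triples with `a` replaced by its set of primes -/
abbrev GG (n : ℕ) := ZMod 2 × ZMod 2 × (n.primeFactors → ZMod 2)

/-- the linear map -/
noncomputable def FF (tp cl n : ℕ) : GG n →+
    (n.primeFactors → ZMod 2) × ZMod 2 × ZMod 2 × ZMod 2 where
  toFun z := (fun p => (z.1 + tw tp * z.2.2 p) * lg (J 2 p) + z.2.1 * lg (J 5 p) +
      S5.TT n z.2.2 p,
    (if cl = 0 then 0 else z.1 + z.2.1 + ∑ q, z.2.2 q * lg (J q 3)),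
    (if tp = 0 then z.1 else 0), (if cl = 0 then z.2.1 else 0))
  map_zero' := by
    refine Prod.ext ?_ (Prod.ext ?_ (Prod.ext ?_ ?_))
    · funext p
      change ((0 : ZMod 2) + tw tp * 0) * lg (J 2 p) + 0 * lg (J 5 p) + S5.TT n 0 p = 0
      rw [map_zero]
      simp
    · change (if cl = 0 then 0 else (0 : ZMod 2) + 0 +
        ∑ q : n.primeFactors, (0 : ZMod 2) * lg (J q 3)) = 0
      simp
    · change (if tp = 0 then (0 : ZMod 2) else 0) = 0
      simp
    · change (if cl = 0 then (0 : ZMod 2) else 0) = 0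
      simp
  map_add' z w := by
    refine Prod.ext ?_ (Prod.ext ?_ (Prod.ext ?_ ?_))
    · funext p
      change ((z.1 + w.1) + tw tp * (z.2.2 p + w.2.2 p)) * lg (J 2 p) +
        (z.2.1 + w.2.1) * lg (J 5 p) + S5.TT n (z.2.2 + w.2.2) p =
        ((z.1 + tw tp * z.2.2 p) * lg (J 2 p) + z.2.1 * lg (J 5 p) + S5.TT n z.2.2 p) +
        ((w.1 + tw tp * w.2.2 p) * lg (J 2 p) + w.2.1 * lg (J 5 p) + S5.TT n w.2.2 p)
      rw [map_add, Pi.add_apply]
      ring
    · change (if cl = 0 then 0 else (z.1 + w.1) + (z.2.1 + w.2.1) +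
          ∑ q : n.primeFactors, (z.2.2 q + w.2.2 q) * lg (J q 3)) =
        (if cl = 0 then 0 else z.1 + z.2.1 + ∑ q, z.2.2 q * lg (J q 3)) +
        (if cl = 0 then 0 else w.1 + w.2.1 + ∑ q, w.2.2 q * lg (J q 3))
      split_ifs
      · rw [add_zero]
      · simp only [add_mul, Finset.sum_add_distrib]
        ring
    · change (if tp = 0 then z.1 + w.1 else 0) = (if tp = 0 then z.1 else 0) +
        (if tp = 0 then w.1 else 0)
      split_ifs
      · rfl
      · rw [add_zero]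
    · change (if cl = 0 then z.2.1 + w.2.1 else 0) = (if cl = 0 then z.2.1 else 0) +
        (if cl = 0 then w.2.1 else 0)
      split_ifs
      · rfl
      · rw [add_zero]

theorem J_Dc' {n : ℕ} (x : n.primeFactors → ZMod 2) (a : ZMod 2) (p : ℕ) :
    J (Dc x a) p = ∏ q : n.primeFactors, (if x q = a then J q p else 1) := by
  unfold Dc
  rw [J_prod_left, Finset.prod_filter]

/-- the local condition at one prime -/
theorem loc_iff {tp n : ℕ} (hn : Squarefree n) (h2 : n % 2 = 1) {x y : ZMod 2}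
    (s : n.primeFactors → ZMod 2) (p : n.primeFactors) (h5 : y = 1 → (p : ℕ) ≠ 5) :
    ((¬ (p : ℕ) ∣ Dc s 1 → IsSquare ((2 ^ x.val * 5 ^ y.val * Dc s 1 : ℕ) : ZMod p)) ∧
      ((p : ℕ) ∣ Dc s 1 → IsSquare ((2 ^ (x.val + if tp = 2 then 1 else 0) * 5 ^ y.val *
        (n / Dc s 1) : ℕ) : ZMod p))) ↔
    (x + tw tp * s p) * lg (J 2 p) + y * lg (J 5 p) + S5.TT n s p = 0 := by
  have hp : (p : ℕ).Prime := prime_coe p
  have hp2 : (p : ℕ) ≠ 2 := by
    intro h
    have h1 := Nat.dvd_of_mem_primeFactors p.2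
    rw [h] at h1
    omega
  have hc2 : Nat.Coprime 2 p := (Nat.coprime_primes Nat.prime_two hp).2 (Ne.symm hp2)
  have hdiv : n / Dc s 1 = Dc s 0 := by
    have h := Dc_zmod2 hn s
    have hpos : 0 < Dc s 1 := by
      rcases Nat.eq_zero_or_pos (Dc s 1) with h0 | h0
      · rw [h0, mul_zero] at h
        exact absurd h.symm hn.ne_zero
      · exact h0
    exact Nat.div_eq_of_eq_mul_left hpos h.symm
  rw [hdiv]
  -- the symbol of a product
  have key : ∀ (e : ℕ), ¬ (p : ℕ) ∣ Dc s (s p + 1) →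
      (IsSquare ((2 ^ e * 5 ^ y.val * Dc s (s p + 1) : ℕ) : ZMod p) ↔
        (e : ZMod 2) * lg (J 2 p) + y * lg (J 5 p) + S5.TT n s p = 0) := by
    intro e hd
    have h5' : PM (J (5 ^ y.val) p) ∧ lg (J (5 ^ y.val) p) = y * lg (J 5 p) ∧
        ¬ (p : ℕ) ∣ 5 ^ y.val := by
      rcases zmod2_cases y with hy | hy
      · rw [hy, show (0 : ZMod 2).val = 0 from rfl, pow_zero, zero_mul]
        have h1 : J 1 (p : ℕ) = 1 := by
          have := J_pow_left 1 0 p
          simpa using this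
        rw [h1, lg_one]
        exact ⟨PM.one, rfl, fun h => hp.one_lt.ne' (Nat.dvd_one.1 h)⟩
      · have hc5 : Nat.Coprime 5 p :=
          (Nat.coprime_primes Nat.prime_five hp).2 (Ne.symm (h5 hy))
        rw [hy, show (1 : ZMod 2).val = 1 from rfl, pow_one, one_mul]
        refine ⟨J_pm' hc5, rfl, ?_⟩
        rw [Nat.prime_dvd_prime_iff_eq hp Nat.prime_five]
        exact h5 hy
    have hnd : ¬ (p : ℕ) ∣ 2 ^ e * 5 ^ y.val * Dc s (s p + 1) := by
      intro h
      rcases (Nat.Prime.dvd_mul hp).1 h with h1 | h1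
      · rcases (Nat.Prime.dvd_mul hp).1 h1 with h3 | h3
        · exact hp2 ((Nat.prime_dvd_prime_iff_eq hp Nat.prime_two).1 (hp.dvd_of_dvd_pow h3))
        · exact h5'.2.2 h3
      · exact hd h1
    rw [← J_eq_one_iff hp hnd, J_mul_left, J_mul_left, J_pow_left]
    have hz2 : PM (J 2 (p : ℕ) ^ e) := (J_pm' hc2).pow e
    have he : J (Dc s (s p + 1)) p = eps s p := (eps_eq s p).symm
    rw [he, eq_one_iff ((hz2.mul h5'.1).mul (eps_pm s p)),
      lg_mul (hz2.mul h5'.1) (eps_pm s p), lg_mul hz2 h5'.1, h5'.2.1, lg_pow (J_pm' hc2),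
      lg_eps]
  rcases zmod2_cases (s p) with h | h
  · have hd : ¬ (p : ℕ) ∣ Dc s 1 := by
      rw [dvd_Dc_iff, h]; decide
    have hk := key x.val
    rw [h, zero_add] at hk
    rw [h, mul_zero, add_zero, ← ZMod.natCast_zmod_val x, ← hk hd]
    simp [hd]
  · have hd : (p : ℕ) ∣ Dc s 1 := by
      rw [dvd_Dc_iff, h]
    have hd0 : ¬ (p : ℕ) ∣ Dc s 0 := by
      rw [dvd_Dc_iff, h]; decide
    have hk := key (x.val + if tp = 2 then 1 else 0)
    rw [h, show (1 : ZMod 2) + 1 = 0 by decide] at hk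
    have h7 : ((x.val + (if tp = 2 then 1 else 0) : ℕ) : ZMod 2) = x + tw tp * 1 := by
      rw [Nat.cast_add, ZMod.natCast_zmod_val, mul_one]
      unfold tw
      split_ifs <;> simp
    rw [h, ← h7, ← hk hd0]
    simp [hd]

/-- the condition modulo three -/
theorem three_iff {n : ℕ} (h3 : ¬ 3 ∣ n) {x y : ZMod 2} (s : n.primeFactors → ZMod 2) :
    (2 ^ x.val * 5 ^ y.val * Dc s 1) % 3 = 1 ↔ x + y + ∑ q, s q * lg (J q 3) = 0 := by
  have hq : ∀ q : n.primeFactors, ¬ 3 ∣ (q : ℕ) := fun q h =>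
    h3 (h.trans (Nat.dvd_of_mem_primeFactors q.2))
  have hqc : ∀ q : n.primeFactors, Nat.Coprime (q : ℕ) 3 := fun q =>
    ((Nat.Prime.coprime_iff_not_dvd Nat.prime_three).2 (hq q)).symm
  have hJ2 : J 2 3 = -1 := by
    unfold Vale.Agent.P014.H580.J
    have : jacobiSym ((2 : ℕ) : ℤ) 3 = -1 := by decide +kernel
    rw [this]; norm_num
  have hJ5 : J 5 3 = -1 := by
    unfold Vale.Agent.P014.H580.J
    have : jacobiSym ((5 : ℕ) : ℤ) 3 = -1 := by decide +kernel
    rw [this]; norm_num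
  have hD : J (Dc s 1) 3 = ∏ q : n.primeFactors, (if s q = 1 then J q 3 else 1) := J_Dc' s 1 3
  have hpm : ∀ q ∈ (univ : Finset n.primeFactors), PM (if s q = 1 then J (q : ℕ) 3 else 1) := by
    intro q _
    split_ifs
    · exact J_pm' (hqc q)
    · exact PM.one
  have hDpm : PM (J (Dc s 1) 3) := by
    rw [hD]; exact PM.prod _ _ hpm
  have hDlg : lg (J (Dc s 1) 3) = ∑ q, s q * lg (J q 3) := by
    rw [hD, lg_prod _ _ hpm]
    exact Finset.sum_congr rfl fun q _ => lg_ite _ _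
  have hnd : ¬ 3 ∣ 2 ^ x.val * 5 ^ y.val * Dc s 1 := by
    intro h
    have hD3 : ¬ 3 ∣ Dc s 1 := by
      intro h1
      unfold Dc at h1
      obtain ⟨q, _, h2⟩ := (Nat.prime_three.prime.dvd_finset_prod_iff _).1 h1
      exact hq q h2
    rcases (Nat.Prime.dvd_mul Nat.prime_three).1 h with h1 | h1
    · rcases (Nat.Prime.dvd_mul Nat.prime_three).1 h1 with h2 | h2
      · have := Nat.prime_three.dvd_of_dvd_pow h2
        omega
      · have := Nat.prime_three.dvd_of_dvd_pow h2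
        omega
    · exact hD3 h1
  have hsq : ∀ m : ℕ, ¬ 3 ∣ m → (m % 3 = 1 ↔ J m 3 = 1) := by
    intro m hm
    rw [J_eq_one_iff Nat.prime_three hm]
    have h1 : ∀ z : ZMod 3, z ≠ 0 → (z.val = 1 ↔ IsSquare z) := by decide
    have h2 : ((m : ℕ) : ZMod 3) ≠ 0 := by
      intro h
      exact hm ((ZMod.natCast_eq_zero_iff _ _).1 h)
    rw [← h1 _ h2, ZMod.val_natCast]
  have hp2 : PM (J 2 3 ^ x.val) := PM.pow (Or.inr hJ2) _
  have hp5 : PM (J 5 3 ^ y.val) := PM.pow (Or.inr hJ5) _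
  rw [hsq _ hnd, J_mul_left, J_mul_left, J_pow_left, J_pow_left,
    eq_one_iff ((hp2.mul hp5).mul hDpm), lg_mul (hp2.mul hp5) hDpm, lg_mul hp2 hp5,
    lg_pow (Or.inr hJ2), lg_pow (Or.inr hJ5), hDlg, hJ2, hJ5, lg_neg, ZMod.natCast_zmod_val,
    ZMod.natCast_zmod_val, mul_one, mul_one]

theorem IsG.odd {tp cl n : ℕ} (h : IsG tp cl n) : n % 2 = 1 := by
  obtain ⟨_, h2, _⟩ := h
  split_ifs at h2 <;> omega

theorem IsG.not_three {tp cl n : ℕ} (h : IsG tp cl n) (hcl : cl ≠ 0) : ¬ 3 ∣ n := by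
  have h3 := h.2.2
  rw [if_neg hcl] at h3
  intro h4
  have : 3 ∣ dd tp n := by
    unfold dd
    split_ifs
    · exact h4.mul_left _
    · exact h4
  omega

theorem IsG.not_five {tp cl n : ℕ} (h : IsG tp cl n) (hcl : cl ≠ 0) : ¬ 5 ∣ n := by
  have h3 := h.2.2
  rw [if_neg hcl] at h3
  intro h4
  have : 5 ∣ dd tp n := by
    unfold dd
    split_ifs
    · exact h4.mul_left _
    · exact h4
  omega

theorem FF_eq_zero {tp cl n : ℕ} (z : GG n) : FF tp cl n z = 0 ↔
    (∀ p, (z.1 + tw tp * z.2.2 p) * lg (J 2 p) + z.2.1 * lg (J 5 p) + S5.TT n z.2.2 p = 0) ∧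
    (if cl = 0 then 0 else z.1 + z.2.1 + ∑ q, z.2.2 q * lg (J q 3)) = 0 ∧
    (if tp = 0 then z.1 else 0) = 0 ∧ (if cl = 0 then z.2.1 else 0) = 0 := by
  rw [Prod.ext_iff, Prod.ext_iff, Prod.ext_iff, funext_iff]
  rfl

/-- membership of a triple -/
theorem mem_iff {tp cl n : ℕ} (hn : IsG tp cl n) (z : GG n) :
    (z.1, z.2.1, Dc z.2.2 1) ∈ R3 tp cl n ↔ FF tp cl n z = 0 := by
  classical
  have h2 := IsG.odd hn
  rw [FF_eq_zero]
  unfold R3
  rw [Finset.mem_filter]
  have hm : (z.1, z.2.1, Dc z.2.2 1) ∈ (univ : Finset (ZMod 2)) ×ˢ (univ : Finset (ZMod 2)) ×ˢ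
      n.divisors := by
    simp only [Finset.mem_product, Finset.mem_univ, true_and, Nat.mem_divisors]
    exact ⟨Dc_dvd hn.1 _ _, hn.1.ne_zero⟩
  have hx : ((tp = 0 → z.1 = 0) ↔ (if tp = 0 then z.1 else 0) = 0) := by
    by_cases h : tp = 0
    · simp [h]
    · simp [h]
  have hy : ((cl = 0 → z.2.1 = 0) ↔ (if cl = 0 then z.2.1 else 0) = 0) := by
    by_cases h : cl = 0
    · simp [h]
    · simp [h]
  have h3 : ((cl ≠ 0 → (2 ^ z.1.val * 5 ^ z.2.1.val * Dc z.2.2 1) % 3 = 1) ↔
      (if cl = 0 then 0 else z.1 + z.2.1 + ∑ q, z.2.2 q * lg (J q 3)) = 0) := by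
    by_cases h : cl = 0
    · simp [h]
    · rw [if_neg h, ← three_iff (IsG.not_three hn h)]
      simp [h]
  have hL : (cl = 0 → z.2.1 = 0) → (Loc3 tp n z.1 z.2.1 (Dc z.2.2 1) ↔
      ∀ p, (z.1 + tw tp * z.2.2 p) * lg (J 2 p) + z.2.1 * lg (J 5 p) + S5.TT n z.2.2 p = 0) := by
    intro hy0
    have h5 : ∀ p : n.primeFactors, z.2.1 = 1 → (p : ℕ) ≠ 5 := by
      intro p hz hp
      have hcl : cl ≠ 0 := by
        intro h
        rw [hy0 h] at hz
        exact absurd hz (by decide)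
      have := Nat.dvd_of_mem_primeFactors p.2
      rw [hp] at this
      exact IsG.not_five hn hcl this
    unfold Loc3
    constructor
    · intro h p
      exact (loc_iff hn.1 h2 z.2.2 p (h5 p)).1
        (h p (prime_coe p) (Nat.dvd_of_mem_primeFactors p.2))
    · intro h p hp hpn
      exact (loc_iff hn.1 h2 z.2.2 ⟨p, Nat.mem_primeFactors.mpr ⟨hp, hpn, hn.1.ne_zero⟩⟩
        (h5 _)).2 (h _)
  constructor
  · rintro ⟨-, a1, a2, a3, a4⟩
    exact ⟨(hL a2).1 a3, h3.1 a4, hx.1 a1, hy.1 a2⟩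
  · rintro ⟨a1, a2, a3, a4⟩
    have b2 := hy.2 a4
    exact ⟨hm, hx.2 a3, b2, (hL b2).2 a1, h3.2 a2⟩

open Classical in
theorem card_R3 {tp cl n : ℕ} (hn : IsG tp cl n) :
    (R3 tp cl n).card = ((univ : Finset (GG n)).filter fun z => FF tp cl n z = 0).card := by
  symm
  refine Finset.card_bij (fun z _ => (z.1, z.2.1, Dc z.2.2 1)) ?_ ?_ ?_
  · intro z hz
    rw [Finset.mem_filter] at hz
    exact (mem_iff hn z).2 hz.2
  · intro z _ w _ h
    have h' := Prod.ext_iff.1 h
    have h'' := Prod.ext_iff.1 h'.2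
    have hD : Dc z.2.2 1 = Dc w.2.2 1 := h''.2
    refine Prod.ext h'.1 (Prod.ext h''.1 ?_)
    funext p
    have h1 := dvd_Dc_iff z.2.2 1 p
    have h2 := dvd_Dc_iff w.2.2 1 p
    rw [hD] at h1
    rcases zmod2_cases (z.2.2 p) with h3 | h3 <;> rcases zmod2_cases (w.2.2 p) with h4 | h4
    · rw [h3, h4]
    · have := h1.mp (h2.mpr h4)
      rw [h3] at this
      exact absurd this (by decide)
    · have := h2.mp (h1.mpr h3)
      rw [h4] at this
      exact absurd this (by decide)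
    · rw [h3, h4]
  · rintro ⟨x, y, a⟩ ha
    have ha' := ha
    unfold R3 at ha'
    rw [Finset.mem_filter] at ha'
    simp only [Finset.mem_product, Finset.mem_univ, true_and, Nat.mem_divisors] at ha'
    obtain ⟨⟨ha1, ha2⟩, -⟩ := ha'
    have hD : (fun u : ZMod 2 => if u = 1 then a else n / a) ∈ tup (ZMod 2) n := by
      unfold tup
      rw [Finset.mem_filter, Fintype.mem_piFinset]
      constructor
      · intro u
        show (if u = 1 then a else n / a) ∈ n.divisors
        rw [Nat.mem_divisors]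
        split_ifs
        · exact ⟨ha1, ha2⟩
        · exact ⟨Nat.div_dvd_of_dvd ha1, ha2⟩
      · have h3 : ∀ f : ZMod 2 → ℕ, ∏ a : ZMod 2, f a = f 0 * f 1 := fun f => Fin.prod_univ_two f
        rw [h3]
        show (if (0 : ZMod 2) = 1 then a else n / a) * (if (1 : ZMod 2) = 1 then a else n / a) = n
        rw [if_neg (by decide), if_pos rfl]
        exact Nat.div_mul_cancel ha1
    obtain ⟨s, hs⟩ := exists_Dc hn.1 hD
    have hs1 : Dc s 1 = a := by
      rw [hs]
      exact if_pos rfl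
    refine ⟨(x, y, s), ?_, ?_⟩
    · rw [Finset.mem_filter]
      refine ⟨Finset.mem_univ _, (mem_iff hn _).1 ?_⟩
      show (x, y, Dc s 1) ∈ R3 tp cl n
      rw [hs1]; exact ha
    · show (x, y, Dc s 1) = (x, y, a)
      rw [hs1]

/-- the trivial triple -/
theorem one_mem {tp cl n : ℕ} (hn : IsG tp cl n) : ((0 : ZMod 2), (0 : ZMod 2), 1) ∈ R3 tp cl n := by
  have h := (mem_iff hn (0 : GG n)).2 (map_zero _)
  have h1 : Dc (0 : n.primeFactors → ZMod 2) 1 = 1 := by
    unfold Dc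
    rw [Finset.filter_false_of_mem, Finset.prod_empty]
    intro p _
    rw [Pi.zero_apply]; decide
  have h2 : ((0 : GG n).1, (0 : GG n).2.1, Dc (0 : GG n).2.2 1) = ((0 : ZMod 2), (0 : ZMod 2), 1) := by
    show ((0 : ZMod 2), (0 : ZMod 2), Dc (0 : n.primeFactors → ZMod 2) 1) = _
    rw [h1]
  rw [h2] at h
  exact h

/-- the triple of the radicand -/
theorem self_mem {tp cl n : ℕ} (hn : IsG tp cl n) : (tw tp, (0 : ZMod 2), n) ∈ R3 tp cl n := by
  classical
  have h2 := IsG.odd hn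
  have hn0 : n ≠ 0 := hn.1.ne_zero
  unfold R3
  rw [Finset.mem_filter]
  refine ⟨?_, ?_, fun _ => rfl, ?_, ?_⟩
  · simp only [Finset.mem_product, Finset.mem_univ, true_and, Nat.mem_divisors]
    exact ⟨dvd_rfl, hn0⟩
  · intro h
    change tw tp = 0
    unfold tw
    rw [if_neg (by omega)]
  · intro p hp hpn
    refine ⟨fun h => absurd hpn h, fun _ => ?_⟩
    change IsSquare ((2 ^ ((tw tp).val + if tp = 2 then 1 else 0) * 5 ^ (0 : ZMod 2).val *
      (n / n) : ℕ) : ZMod p)
    rw [Nat.div_self (Nat.pos_of_ne_zero hn0), show (0 : ZMod 2).val = 0 from rfl, pow_zero]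
    unfold tw
    by_cases h : tp = 2
    · rw [if_pos h, if_pos h, show (1 : ZMod 2).val = 1 from rfl]
      exact ⟨2, by push_cast; ring⟩
    · rw [if_neg h, if_neg h, show (0 : ZMod 2).val = 0 from rfl]
      exact ⟨1, by push_cast; ring⟩
  · intro hcl
    have h3 := hn.2.2
    rw [if_neg hcl] at h3
    change (2 ^ (tw tp).val * 5 ^ (0 : ZMod 2).val * n) % 3 = 1
    have h4 : 2 ^ (tw tp).val * 5 ^ (0 : ZMod 2).val * n = dd tp n := by
      unfold tw dd
      rw [show (0 : ZMod 2).val = 0 from rfl, pow_zero, mul_one]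
      by_cases h : tp = 2
      · rw [if_pos h, if_pos h, show (1 : ZMod 2).val = 1 from rfl, pow_one]
      · rw [if_neg h, if_neg h, show (0 : ZMod 2).val = 0 from rfl, pow_zero, one_mul]
    rw [h4]
    exact h3.1

/-- two different triples -/
theorem two_le {tp cl n : ℕ} (hn : IsG tp cl n) : 2 ≤ (R3 tp cl n).card := by
  classical
  have h2 := IsG.odd hn
  obtain ⟨w, hw, hne⟩ : ∃ w ∈ R3 tp cl n, w ≠ ((0 : ZMod 2), (0 : ZMod 2), 1) := by
    by_cases h1 : n = 1
    · by_cases htp : tp = 2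
      · refine ⟨_, self_mem hn, ?_⟩
        intro h
        have h7 : tw tp = 0 := (Prod.ext_iff.1 h).1
        unfold tw at h7
        rw [if_pos htp] at h7
        exact absurd h7 (by decide)
      · -- `n = 1`, so that `tp = 1` and `cl ≠ 0`
        have hcl : cl ≠ 0 := by
          intro hcl
          have h3 := hn.2.2
          rw [if_pos hcl] at h3
          apply h3.1
          unfold dd
          rw [if_neg htp, h1]
        have htp0 : tp ≠ 0 := by
          intro h
          have h3 := hn.2.1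
          rw [if_pos h, h1] at h3
          omega
        refine ⟨((1 : ZMod 2), (1 : ZMod 2), 1), ?_, ?_⟩
        · unfold R3
          rw [Finset.mem_filter]
          refine ⟨?_, fun h => absurd h htp0, fun h => absurd h hcl, ?_, fun _ => by decide⟩
          · simp only [Finset.mem_product, Finset.mem_univ, true_and, Nat.mem_divisors]
            exact ⟨one_dvd _, hn.1.ne_zero⟩
          · intro p hp hpn
            rw [h1] at hpn
            exact absurd (Nat.dvd_one.1 hpn) hp.one_lt.ne'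
        · intro h
          have h7 : (1 : ZMod 2) = 0 := (Prod.ext_iff.1 h).1
          exact absurd h7 (by decide)
    · refine ⟨_, self_mem hn, ?_⟩
      intro h
      exact h1 (Prod.ext_iff.1 (Prod.ext_iff.1 h).2).2
  exact Finset.one_lt_card.2 ⟨w, hw, _, one_mem hn, hne⟩

end Vale.Agent.P017.H443.T10

namespace Vale.Agent.P017.H506

open Finset Function Vale.Agent.P014.FM

/-- T10 -/
theorem R3_pow {tp cl n : ℕ} (hn : IsG tp cl n) : ∃ j : ℕ, 1 ≤ j ∧ (R3 tp cl n).card = 2 ^ j := by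
  classical
  have h1 : (R3 tp cl n).card = Nat.card (H443.T10.FF tp cl n).ker := by
    rw [H443.T10.card_R3 hn]
    refine (Nat.subtype_card _ fun x => ?_).symm
    rw [Finset.mem_filter, AddMonoidHom.mem_ker]
    exact ⟨fun h => h.2, fun h => ⟨Finset.mem_univ _, h⟩⟩
  have h2 : Nat.card (H443.T10.FF tp cl n).ker ∣ 2 ^ (n.primeFactors.card + 2) := by
    have h3 := AddSubgroup.card_addSubgroup_dvd_card (H443.T10.FF tp cl n).ker
    have h4 : Nat.card (H443.T10.GG n) = 2 ^ (n.primeFactors.card + 2) := by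
      rw [Nat.card_eq_fintype_card, Fintype.card_prod, Fintype.card_prod, Fintype.card_fun,
        ZMod.card, Fintype.card_coe]
      ring
    rw [h4] at h3
    exact h3
  obtain ⟨j, -, hj⟩ := (Nat.dvd_prime_pow Nat.prime_two).1 h2
  refine ⟨j, ?_, by rw [h1, hj]⟩
  by_contra h
  have h0 : j = 0 := by omega
  have h5 := H443.T10.two_le hn
  rw [h1, hj, h0] at h5
  norm_num at h5

end Vale.Agent.P017.H506
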