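import Vale.Agent.P017.H506.Defs

/-!
Colourings of the prime factors and factorisations, generic index type.
-/

namespace Vale.Agent.P017.H443

open Finset Vale.Agent.P014.FM Vale.Agent.P017.H506

section jac

theorem J_one_left (e : ℕ) : J 1 e = 1 := by
  unfold Vale.Agent.P014.H580.J
  rw [Nat.cast_one, jacobiSym.one_left, Int.cast_one]

theorem J_one_right' (e : ℕ) : J e 1 = 1 := by
  unfold Vale.Agent.P014.H580.J
  rw [jacobiSym.one_right, Int.cast_one]

theorem J_prod_left {ι : Type*} (s : Finset ι) (f : ι → ℕ) (e : ℕ) :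
    J (∏ i ∈ s, f i) e = ∏ i ∈ s, J (f i) e := by
  classical
  induction s using Finset.induction_on with
  | empty => simp [J_one_left]
  | insert i s hi ih =>
    rw [Finset.prod_insert hi, Finset.prod_insert hi, Vale.Agent.P014.H580.J_mul_left, ih]

theorem J_prod_right {ι : Type*} (s : Finset ι) (f : ι → ℕ) (hf : ∀ i ∈ s, f i ≠ 0) (e : ℕ) :
    J e (∏ i ∈ s, f i) = ∏ i ∈ s, J e (f i) := by
  classical
  induction s using Finset.induction_on with
  | empty => simp [J_one_right']
  | insert i s hi ih =>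
    rw [Finset.prod_insert hi, Finset.prod_insert hi, Vale.Agent.P014.H580.J_mul_right _ _ _
      (hf i (Finset.mem_insert_self _ _))
      (Finset.prod_ne_zero_iff.mpr fun j hj => hf j (Finset.mem_insert_of_mem hj)),
      ih fun j hj => hf j (Finset.mem_insert_of_mem hj)]

end jac

variable {ι : Type*} [Fintype ι] [DecidableEq ι]

/-- the factorisation attached to a colouring -/
def Dc {n : ℕ} (c : n.primeFactors → ι) (u : ι) : ℕ :=
  ∏ p ∈ Finset.univ.filter (fun p => c p = u), (p : ℕ)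

theorem wtP_Dc {n : ℕ} (P : ι → ι → ZMod 2) (c : n.primeFactors → ι) :
    wtP P (Dc c) = ∏ p : n.primeFactors, ∏ q : n.primeFactors,
      (if P (c p) (c q) = 1 then J p q else 1) := by
  have hpr : ∀ p : n.primeFactors, (p : ℕ).Prime := fun p => Nat.prime_of_mem_primeFactors p.2
  unfold wtP
  have h1 : ∀ u v : ι, (if P u v = 1 then J (Dc c u) (Dc c v) else 1) =
      ∏ p ∈ Finset.univ.filter (fun p => c p = u), ∏ q ∈ Finset.univ.filter (fun q => c q = v),
        (if P (c p) (c q) = 1 then J p q else 1) := by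
    intro u v
    split_ifs with h
    · unfold Dc
      rw [J_prod_left]
      refine Finset.prod_congr rfl fun p hp => ?_
      rw [Finset.mem_filter] at hp
      rw [J_prod_right _ _ fun q _ => (hpr q).ne_zero]
      refine Finset.prod_congr rfl fun q hq => ?_
      rw [Finset.mem_filter] at hq
      rw [hp.2, hq.2, if_pos h]
    · refine (Finset.prod_eq_one fun p hp => Finset.prod_eq_one fun q hq => ?_).symm
      rw [Finset.mem_filter] at hp hq
      show (if P (c p) (c q) = 1 then J p q else 1) = 1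
      rw [hp.2, hq.2, if_neg h]
  rw [Finset.prod_congr rfl fun u _ => Finset.prod_congr rfl fun v _ => h1 u v]
  have h2 : ∀ u : ι, ∏ v : ι, ∏ p ∈ Finset.univ.filter (fun p => c p = u),
      ∏ q ∈ Finset.univ.filter (fun q => c q = v), (if P (c p) (c q) = 1 then J p q else 1) =
      ∏ p ∈ Finset.univ.filter (fun p => c p = u),
        ∏ q : n.primeFactors, (if P (c p) (c q) = 1 then J p q else 1) := by
    intro u
    rw [Finset.prod_comm]
    refine Finset.prod_congr rfl fun p _ => ?_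
    exact Finset.prod_fiberwise _ _ _
  rw [Finset.prod_congr rfl fun u _ => h2 u]
  exact Finset.prod_fiberwise _ _ _

theorem prod_Dc {n : ℕ} (hn : Squarefree n) (c : n.primeFactors → ι) : ∏ u, Dc c u = n := by
  unfold Dc
  rw [Finset.prod_fiberwise Finset.univ c (fun p => (p : ℕ)),
    Finset.prod_coe_sort n.primeFactors (fun p => p)]
  exact Nat.prod_primeFactors_of_squarefree hn

theorem Dc_dvd {n : ℕ} (hn : Squarefree n) (c : n.primeFactors → ι) (u : ι) : Dc c u ∣ n := by
  conv_rhs => rw [← prod_Dc hn c]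
  exact Finset.dvd_prod_of_mem _ (Finset.mem_univ u)

omit [Fintype ι] in
theorem dvd_Dc_iff {n : ℕ} (c : n.primeFactors → ι) (u : ι) (p : n.primeFactors) :
    (p : ℕ) ∣ Dc c u ↔ c p = u := by
  have hpr : ∀ p : n.primeFactors, (p : ℕ).Prime := fun p => Nat.prime_of_mem_primeFactors p.2
  unfold Dc
  rw [(hpr p).prime.dvd_finsetProd_iff]
  constructor
  · rintro ⟨q, hq, hpq⟩
    rw [Finset.mem_filter] at hq
    have : p = q := Subtype.ext ((Nat.prime_dvd_prime_iff_eq (hpr p) (hpr q)).mp hpq)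
    rw [this]; exact hq.2
  · intro h
    exact ⟨p, Finset.mem_filter.mpr ⟨Finset.mem_univ _, h⟩, dvd_rfl⟩

omit [Fintype ι] in
theorem Dc_injective {n : ℕ} : Function.Injective (fun c : n.primeFactors → ι => Dc c) := by
  intro c c' h
  funext p
  have h1 := (dvd_Dc_iff c (c p) p).mpr rfl
  have h' : Dc c = Dc c' := h
  rw [h'] at h1
  exact ((dvd_Dc_iff c' (c p) p).mp h1).symm

theorem Dc_mem {n : ℕ} (hn : Squarefree n) (c : n.primeFactors → ι) : Dc c ∈ tup ι n := by
  unfold tup
  rw [Finset.mem_filter, Fintype.mem_piFinset]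
  exact ⟨fun u => Nat.mem_divisors.mpr ⟨Dc_dvd hn c u, hn.ne_zero⟩, prod_Dc hn c⟩

theorem exists_Dc {n : ℕ} (hn : Squarefree n) {D : ι → ℕ} (hD : D ∈ tup ι n) :
    ∃ c : n.primeFactors → ι, Dc c = D := by
  have hn0 : n ≠ 0 := hn.ne_zero
  unfold tup at hD
  rw [Finset.mem_filter, Fintype.mem_piFinset] at hD
  obtain ⟨hD1, hD2⟩ := hD
  have h1 : ∀ p : n.primeFactors, ∃ u, (p : ℕ) ∣ D u := by
    intro p
    have h2 : (p : ℕ) ∣ ∏ u, D u := hD2.symm ▸ Nat.dvd_of_mem_primeFactors p.2
    rw [(Nat.prime_of_mem_primeFactors p.2).prime.dvd_finsetProd_iff] at h2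
    obtain ⟨u, _, hu⟩ := h2
    exact ⟨u, hu⟩
  choose c hc using h1
  refine ⟨c, ?_⟩
  funext u
  have hDn : ∀ u, D u ∣ n := fun u => Nat.dvd_of_mem_divisors (hD1 u)
  rw [Nat.Squarefree.ext_iff (hn.squarefree_of_dvd (Dc_dvd hn c u))
    (hn.squarefree_of_dvd (hDn u))]
  intro p hp
  constructor
  · intro h
    have hpn : p ∈ n.primeFactors :=
      Nat.mem_primeFactors.mpr ⟨hp, h.trans (Dc_dvd hn c u), hn0⟩
    have h4 := (dvd_Dc_iff c u ⟨p, hpn⟩).mp h
    have h5 := hc ⟨p, hpn⟩
    rwa [h4] at h5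
  · intro h
    have hpn : p ∈ n.primeFactors :=
      Nat.mem_primeFactors.mpr ⟨hp, h.trans (hDn u), hn0⟩
    refine (dvd_Dc_iff c u ⟨p, hpn⟩).mpr ?_
    by_contra hne
    have h5 := hc ⟨p, hpn⟩
    have h6 : p * p ∣ n := by
      rw [← hD2, ← Finset.mul_prod_erase Finset.univ D (Finset.mem_univ u)]
      exact Nat.mul_dvd_mul h (h5.trans (Finset.dvd_prod_of_mem _
        (Finset.mem_erase.mpr ⟨hne, Finset.mem_univ _⟩)))
    exact hp.not_isUnit (hn p h6)

theorem sum_tup {n : ℕ} (hn : Squarefree n) (F : (ι → ℕ) → ℝ) :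
    ∑ c : n.primeFactors → ι, F (Dc c) = ∑ D ∈ tup ι n, F D := by
  refine Finset.sum_bij (fun c _ => Dc c) (fun c _ => Dc_mem hn c) ?_ ?_ (fun c _ => rfl)
  · intro c _ c' _ h
    exact Dc_injective h
  · intro D hD
    obtain ⟨c, hc⟩ := exists_Dc hn hD
    exact ⟨c, Finset.mem_univ _, hc⟩

omit [Fintype ι] in
theorem Dc_eq_one_iff {n : ℕ} (c : n.primeFactors → ι) (u : ι) :
    Dc c u = 1 ↔ ∀ p, c p ≠ u := by
  constructor
  · intro h p hp
    have h1 := (dvd_Dc_iff c u p).mpr hp
    rw [h] at h1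
    exact (Nat.prime_of_mem_primeFactors p.2).one_lt.ne' (Nat.dvd_one.mp h1)
  · intro h
    unfold Dc
    rw [Finset.filter_false_of_mem (fun p _ => h p), Finset.prod_empty]

/-- the sum over the factorisations supported on `U` is a sum over the colourings by `U` -/
theorem sum_supp {n : ℕ} (hn : Squarefree n) (U : Finset ι) (F : (ι → ℕ) → ℝ) :
    ∑ D ∈ (tup ι n).filter (fun D => ∀ u, u ∉ U → D u = 1), F D =
      ∑ c ∈ Fintype.piFinset (fun _ : n.primeFactors => U), F (Dc c) := by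
  symm
  refine Finset.sum_bij (fun c _ => Dc c) ?_ ?_ ?_ (fun c _ => rfl)
  · intro c hc
    rw [Fintype.mem_piFinset] at hc
    rw [Finset.mem_filter]
    refine ⟨Dc_mem hn c, fun u hu => (Dc_eq_one_iff c u).mpr fun p hp => hu ?_⟩
    rw [← hp]; exact hc p
  · intro c _ c' _ h
    exact Dc_injective h
  · intro D hD
    rw [Finset.mem_filter] at hD
    obtain ⟨c, hc⟩ := exists_Dc hn hD.1
    refine ⟨c, ?_, hc⟩
    rw [Fintype.mem_piFinset]
    intro p
    by_contra hp
    have h1 := hD.2 _ hp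
    rw [← hc] at h1
    exact (Dc_eq_one_iff c (c p)).mp h1 p rfl

end Vale.Agent.P017.H443
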